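import Mathlib
import Vale.Agent.Lib.P058.Defs

/-!
# P058: three algebra lemmas for the cyclic kites (pool pieces J1, J2, J7)
-/

namespace Vale.Agent.Lib.P058.H33

open Vale.Agent.Lib.P058

theorem kite_relation (w1 w2 : ℂ) (t : ℝ) (h1 : Complex.normSq w1 = 1) (h2 : Complex.normSq w2 = 1)
    (ht : (1 + t) * Complex.normSq (w1 - 1) = (1 - t) * Complex.normSq (w2 - 1)) :
    w1 * ((starRingEnd ℂ) w1 - w2 - 2 * (t : ℂ))
        + w2 * (starRingEnd ℂ) ((starRingEnd ℂ) w1 - w2 - 2 * (t : ℂ))
      = (1 + (t : ℂ)) * ((starRingEnd ℂ) w1 - w2 - 2 * (t : ℂ))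
        + (1 - (t : ℂ)) * (starRingEnd ℂ) ((starRingEnd ℂ) w1 - w2 - 2 * (t : ℂ)) := by
  have h1' : w1.re * w1.re + w1.im * w1.im = 1 := by
    rw [← Complex.normSq_apply]; exact h1
  have h2' : w2.re * w2.re + w2.im * w2.im = 1 := by
    rw [← Complex.normSq_apply]; exact h2
  have ht' : (1 + t) * ((w1.re - 1) * (w1.re - 1) + w1.im * w1.im) =
      (1 - t) * ((w2.re - 1) * (w2.re - 1) + w2.im * w2.im) := by
    have h := ht
    simp only [Complex.normSq_apply, Complex.sub_re, Complex.sub_im, Complex.one_re,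
      Complex.one_im, sub_zero] at h
    exact h
  apply Complex.ext
  · simp only [Complex.add_re, Complex.add_im, Complex.mul_re, Complex.mul_im, Complex.sub_re,
      Complex.sub_im, Complex.conj_re, Complex.conj_im, Complex.ofReal_re, Complex.ofReal_im,
      Complex.one_re, Complex.one_im, Complex.re_ofNat, Complex.im_ofNat]
    linear_combination ht' - t * h1' - t * h2'
  · simp only [Complex.add_re, Complex.add_im, Complex.mul_re, Complex.mul_im, Complex.sub_re,
      Complex.sub_im, Complex.conj_re, Complex.conj_im, Complex.ofReal_re, Complex.ofReal_im,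
      Complex.one_re, Complex.one_im, Complex.re_ofNat, Complex.im_ofNat]
    ring

theorem kite_norms (a b c d : ℂ) (t : ℝ) (hb : Complex.normSq b = Complex.normSq a)
    (hc : Complex.normSq c = Complex.normSq a) (hd : Complex.normSq d = Complex.normSq a)
    (hrel : b + d = (1 + (t : ℂ)) * a + (1 - (t : ℂ)) * c) :
    Complex.normSq (a - b) + Complex.normSq (a - d) = (1 - t) * Complex.normSq (a - c) ∧
    Complex.normSq (c - b) + Complex.normSq (c - d) = (1 + t) * Complex.normSq (a - c) ∧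
    Complex.normSq (b - d) = (1 - t ^ 2) * Complex.normSq (a - c) := by
  have hb' : b.re * b.re + b.im * b.im = a.re * a.re + a.im * a.im := by
    rw [← Complex.normSq_apply, ← Complex.normSq_apply]; exact hb
  have hc' : c.re * c.re + c.im * c.im = a.re * a.re + a.im * a.im := by
    rw [← Complex.normSq_apply, ← Complex.normSq_apply]; exact hc
  have hd' : d.re * d.re + d.im * d.im = a.re * a.re + a.im * a.im := by
    rw [← Complex.normSq_apply, ← Complex.normSq_apply]; exact hd
  have R1 : b.re + d.re = (1 + t) * a.re + (1 - t) * c.re := by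
    have h := congrArg Complex.re hrel
    simp only [Complex.add_re, Complex.mul_re, Complex.sub_re, Complex.ofReal_re,
      Complex.ofReal_im, Complex.one_re, Complex.one_im, Complex.add_im, Complex.sub_im] at h
    linarith
  have R2 : b.im + d.im = (1 + t) * a.im + (1 - t) * c.im := by
    have h := congrArg Complex.im hrel
    simp only [Complex.add_im, Complex.mul_im, Complex.sub_re, Complex.ofReal_re,
      Complex.ofReal_im, Complex.one_re, Complex.one_im, Complex.add_re, Complex.sub_im] at h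
    linarith
  refine ⟨?_, ?_, ?_⟩
  · simp only [Complex.normSq_apply, Complex.sub_re, Complex.sub_im]
    linear_combination hb' + hd' - 2 * a.re * R1 - 2 * a.im * R2 - (1 - t) * hc'
  · simp only [Complex.normSq_apply, Complex.sub_re, Complex.sub_im]
    linear_combination hb' + hd' + (t - 1) * hc' - 2 * c.re * R1 - 2 * c.im * R2
  · simp only [Complex.normSq_apply, Complex.sub_re, Complex.sub_im]
    linear_combination 2 * hb' + 2 * hd' - 2 * (1 - t) * hc'
      - ((1 + t) * a.re + (1 - t) * c.re + b.re + d.re) * R1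
      - ((1 + t) * a.im + (1 - t) * c.im + b.im + d.im) * R2

theorem kite_dist_arith (N t sa sb : ℝ) (hN : 0 < N) (hsa : 0 < sa) (hsb : 0 < sb)
    (ht : (1 + t) * sa ^ 2 = (1 - t) * sb ^ 2) :
    ∃ s : ℝ, 0 < s ∧ Real.sqrt ((1 - t) * N) = s * sa ∧ Real.sqrt ((1 + t) * N) = s * sb ∧
      Real.sqrt (2 * N) = s * Real.sqrt (sa ^ 2 + sb ^ 2) ∧
      Real.sqrt (2 * ((1 - t ^ 2) * N)) = 2 * s * sa * sb / Real.sqrt (sa ^ 2 + sb ^ 2) := by
  set Q : ℝ := sa ^ 2 + sb ^ 2 with hQdef
  have hQ : 0 < Q := by positivity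
  have h1 : (1 - t) * Q = 2 * sa ^ 2 := by
    rw [hQdef]; linear_combination (-1 : ℝ) * ht
  have h2 : (1 + t) * Q = 2 * sb ^ 2 := by
    rw [hQdef]; linear_combination ht
  have hpos : 0 < 2 * N / Q := by positivity
  set s : ℝ := Real.sqrt (2 * N / Q) with hsdef
  have hs : 0 < s := Real.sqrt_pos.mpr hpos
  have hs2 : s ^ 2 = 2 * N / Q := Real.sq_sqrt hpos.le
  have hs2Q : s ^ 2 * Q = 2 * N := by
    rw [hs2]; field_simp
  set r : ℝ := Real.sqrt Q with hrdef
  have hr : 0 < r := Real.sqrt_pos.mpr hQ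
  have hr2 : r ^ 2 = Q := Real.sq_sqrt hQ.le
  refine ⟨s, hs, ?_, ?_, ?_, ?_⟩
  · have e : (1 - t) * N = (s * sa) ^ 2 := by
      linear_combination (-(1 - t) / 2) * hs2Q + (s ^ 2 / 2) * h1
    rw [e, Real.sqrt_sq (by positivity)]
  · have e : (1 + t) * N = (s * sb) ^ 2 := by
      linear_combination (-(1 + t) / 2) * hs2Q + (s ^ 2 / 2) * h2
    rw [e, Real.sqrt_sq (by positivity)]
  · have e : 2 * N = (s * r) ^ 2 := by
      rw [mul_pow, hr2]; linarith
    rw [e, Real.sqrt_sq (by positivity)]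
  · have hkey : 2 * ((1 - t ^ 2) * N) * Q = (2 * s * sa * sb) ^ 2 := by
      linear_combination (s ^ 2 * (1 + t) * Q) * h1 + (2 * s ^ 2 * sa ^ 2) * h2
        - ((1 - t) * (1 + t) * Q) * hs2Q
    have e : 2 * ((1 - t ^ 2) * N) = (2 * s * sa * sb / r) ^ 2 := by
      rw [div_pow, hr2, eq_div_iff hQ.ne']
      exact hkey
    rw [e, Real.sqrt_sq (by positivity)]

end Vale.Agent.Lib.P058.H33
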